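import Vale.Agent.Results.P252.A_entire_counterexample
import Vale.Agent.Results.P252.A_semidefinite_w
import Vale.Agent.Results.P252.B_pinched_det

open Vale.Agent.Lib.P252 Matrix
open scoped ContDiff

namespace Vale.Agent.Results.P252.AAA_union

/-- The entire smooth counterexample for `n ≥ 10`, the rigidity for semidefinite Hessian of `w`,
and the pinching statement for the determinant. -/
theorem result :
    (∀ n : ℕ, 10 ≤ n →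
      ∃ u : (Fin n → ℝ) → ℝ, ContDiff ℝ ∞ u ∧ (∀ x, (hess u x).PosDef)
        ∧ (∀ x, ∑ i, ∑ j, ((hess u x).det • (hess u x)⁻¹) i j * hess (affW u) x i j = 0)
        ∧ ∀ (A : Matrix (Fin n) (Fin n) ℝ) (b : Fin n → ℝ) (c : ℝ),
            ¬ ∀ x, u x = (1 / 2) * (x ⬝ᵥ A *ᵥ x) + b ⬝ᵥ x + c) ∧
    (∀ (n : ℕ), 1 ≤ n → ∀ (Ω : Set (Fin n → ℝ)), IsOpen Ω → Convex ℝ Ω → Ω.Nonempty →
      ∀ (u : (Fin n → ℝ) → ℝ), ContDiffOn ℝ 4 u Ω →
      (∀ x ∈ Ω, (hess u x).PosDef) →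
      (∀ x ∈ Ω, ∑ i, ∑ j, ((hess u x).det • (hess u x)⁻¹) i j * hess (affW u) x i j = 0) →
      IsClosed (graphOver Ω u) →
      (∀ x ∈ Ω, (hess (affW u) x).PosSemidef ∨ (-hess (affW u) x).PosSemidef) →
      Ω = Set.univ ∧ ∃ c : ℝ, 0 < c ∧ ∀ x, (hess u x).det = c) ∧
    (∀ (n : ℕ), 1 ≤ n → ∀ (Ω : Set (Fin n → ℝ)), IsOpen Ω → Convex ℝ Ω → Ω.Nonempty →
      ∀ (u : (Fin n → ℝ) → ℝ), ContDiffOn ℝ 2 u Ω →
      (∀ x ∈ Ω, (hess u x).PosDef) →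
      IsClosed (graphOver Ω u) →
      ∀ (b : Fin n → ℝ) (γ : ℝ), (∀ x ∈ Ω, 0 < γ + b ⬝ᵥ x) →
      ∀ (β lam Lam : ℝ), 0 ≤ β → β < 2 → 0 < lam → 0 < Lam →
      (∀ x ∈ Ω, lam * (γ + b ⬝ᵥ x) ^ (-β) ≤ (hess u x).det) →
      (∀ x ∈ Ω, (hess u x).det ≤ Lam * (γ + b ⬝ᵥ x) ^ (-β)) →
      b = 0) :=
  ⟨fun n hn => Vale.Agent.Results.P252.A_entire_counterexample.result n hn,
    fun _ hn _ hO hc hne _ hu hpd hAM hclosed hsemi =>
      Vale.Agent.Results.P252.A_semidefinite_w.result hn _ hO hc hne _ hu hpd hAM hclosed hsemi,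
    fun _ hn _ hO hc hne _ hu hpd hclosed b γ hl β lam Lam h0 h2 hlam hLam hlow hup =>
      Vale.Agent.Results.P252.B_pinched_det.result hn _ hO hc hne _ hu hpd hclosed b γ hl β lam Lam
        h0 h2 hlam hLam hlow hup⟩

end Vale.Agent.Results.P252.AAA_union
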